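import Mathlib

/-! Tracial states on unital C⋆-algebras: the 2-seminorm `n2` and the quantity
`q4 x = n2 (x⋆ x)` (the square of the 4-seminorm).  Used by the gain step of row 95. -/

namespace Crest.Agent.R95.G

open scoped ComplexOrder ComplexConjugate InnerProductSpace

/-- A tracial state (faithfulness is not needed for the gain step). -/
class Tr (A : Type*) [CStarAlgebra A] where
  τ : A →ₗ[ℂ] ℂ
  τ_one : τ 1 = 1
  τ_comm : ∀ a b, τ (a * b) = τ (b * a)
  τ_nonneg : ∀ a, 0 ≤ τ (star a * a)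

export Tr (τ τ_one τ_comm τ_nonneg)

variable {A : Type*} [CStarAlgebra A] [Tr A]

theorem τ_pos_of_nonneg [PartialOrder A] [StarOrderedRing A] {a : A} (ha : 0 ≤ a) :
    0 ≤ (τ a : ℂ) := by
  have := τ_nonneg (CFC.sqrt a)
  rwa [(CFC.sqrt_nonneg a).isSelfAdjoint.star_eq, CFC.sqrt_mul_sqrt_self a ha] at this

theorem τ_mono [PartialOrder A] [StarOrderedRing A] {a b : A} (h : a ≤ b) :
    (τ a : ℂ) ≤ τ b := by
  have := τ_pos_of_nonneg (sub_nonneg.2 h)
  rwa [map_sub, sub_nonneg] at this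

theorem τ_im_of_sa {a : A} (ha : IsSelfAdjoint a) : (τ a : ℂ).im = 0 := by
  have h1 := (Complex.nonneg_iff.1 (τ_nonneg (a + 1))).2
  have h2 := (Complex.nonneg_iff.1 (τ_nonneg a)).2
  have e : star (a + 1) * (a + 1) = star a * a + a + a + 1 := by
    rw [star_add, star_one, ha.star_eq]; noncomm_ring
  rw [e] at h1
  simp only [map_add, τ_one, Complex.add_im, Complex.one_im] at h1
  linarith

theorem τ_star (a : A) : (τ (star a) : ℂ) = conj (τ a) := by
  have h1 := τ_im_of_sa (a := a + star a) (by simp [IsSelfAdjoint, add_comm])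
  have h2 := τ_im_of_sa (a := Complex.I • (a - star a))
    (by simp [IsSelfAdjoint, star_smul, smul_sub, sub_eq_neg_add, add_comm])
  simp only [map_add, map_smul, map_sub, Complex.add_im, smul_eq_mul, Complex.mul_im,
    Complex.I_re, Complex.I_im, zero_mul, one_mul, zero_add, Complex.sub_re] at h1 h2
  apply Complex.ext <;> simp <;> linarith

/-- Type synonym carrying the trace inner product. -/
def L2 (A : Type*) := A

instance : AddCommGroup (L2 A) := inferInstanceAs (AddCommGroup A)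
noncomputable instance : Module ℂ (L2 A) := inferInstanceAs (Module ℂ A)

/-- The trace pre-inner product. -/
@[instance_reducible]
noncomputable def core (A : Type*) [CStarAlgebra A] [Tr A] : PreInnerProductSpace.Core ℂ (L2 A) where
  inner x y := τ (star (show A from x) * (show A from y))
  conj_inner_symm x y := by
    change conj (τ (star (show A from y) * (show A from x))) = _
    rw [← τ_star]; simp
  re_inner_nonneg x := (Complex.nonneg_iff.1 (τ_nonneg (show A from x))).1
  add_left x y z := by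
    change τ (star ((show A from x) + (show A from y)) * (show A from z)) = _
    rw [star_add, add_mul, map_add]
  smul_left x y r := by
    change τ (star (r • (show A from x)) * (show A from y)) = _
    rw [star_smul, smul_mul_assoc, map_smul]; rfl

noncomputable instance : SeminormedAddCommGroup (L2 A) :=
  @InnerProductSpace.Core.toSeminormedAddCommGroup ℂ (L2 A) _ _ _ (core A)

noncomputable instance : InnerProductSpace ℂ (L2 A) := InnerProductSpace.ofCore (core A)

/-- The identity map to the type synonym. -/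
noncomputable def Λ : A →ₗ[ℂ] L2 A := LinearMap.id

theorem inner_Λ (x y : A) : ⟪Λ x, Λ y⟫_ℂ = τ (star x * y) := rfl

/-- The trace 2-seminorm. -/
noncomputable def n2 (x : A) : ℝ := ‖Λ x‖

theorem n2_def (x : A) : n2 x = √((τ (star x * x) : ℂ).re) := rfl

theorem n2_nonneg (x : A) : 0 ≤ n2 x := norm_nonneg _

theorem n2_sq (x : A) : n2 x ^ 2 = (τ (star x * x) : ℂ).re := by
  rw [n2_def, Real.sq_sqrt (Complex.nonneg_iff.1 (τ_nonneg x)).1]

theorem τ_star_mul_self (x : A) : (τ (star x * x) : ℂ) = ((n2 x ^ 2 : ℝ) : ℂ) := by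
  apply Complex.ext
  · rw [n2_sq]; simp
  · rw [Complex.ofReal_im]; exact (Complex.nonneg_iff.1 (τ_nonneg x)).2.symm

@[simp] theorem n2_zero : n2 (0 : A) = 0 := by simp [n2]
@[simp] theorem n2_neg (x : A) : n2 (-x) = n2 x := by simp [n2]
theorem n2_add_le (x y : A) : n2 (x + y) ≤ n2 x + n2 y := by
  simp only [n2, map_add]; exact norm_add_le _ _
theorem n2_sub_le (x y : A) : n2 (x - y) ≤ n2 x + n2 y := by
  simp only [n2, map_sub]; exact norm_sub_le _ _
theorem n2_sub_comm (x y : A) : n2 (x - y) = n2 (y - x) := by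
  rw [← n2_neg, neg_sub]
theorem n2_smul (c : ℂ) (x : A) : n2 (c • x) = ‖c‖ * n2 x := by
  simp only [n2, map_smul, norm_smul]
theorem n2_real_smul (c : ℝ) (x : A) : n2 (c • x) = |c| * n2 x := by
  rw [← Complex.coe_smul, n2_smul, Complex.norm_real, Real.norm_eq_abs]
theorem n2_sum_le {ι : Type*} (s : Finset ι) (f : ι → A) :
    n2 (∑ i ∈ s, f i) ≤ ∑ i ∈ s, n2 (f i) := by
  simp only [n2, map_sum]; exact norm_sum_le _ _
theorem n2_star (x : A) : n2 (star x) = n2 x := by
  rw [n2_def, n2_def, star_star, τ_comm]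
@[simp] theorem n2_one : n2 (1 : A) = 1 := by simp [n2_def, τ_one]

theorem n2_parallelogram (x y : A) :
    n2 (x + y) ^ 2 + n2 (x - y) ^ 2 = 2 * n2 x ^ 2 + 2 * n2 y ^ 2 := by
  have := parallelogram_law_with_norm ℂ (Λ x) (Λ y)
  simp only [n2, map_add, map_sub]
  nlinarith

theorem n2_add_sq (x y : A) :
    n2 (x + y) ^ 2 = n2 x ^ 2 + 2 * (τ (star x * y) : ℂ).re + n2 y ^ 2 := by
  have := norm_add_sq (𝕜 := ℂ) (Λ x) (Λ y)
  simpa only [n2, map_add, inner_Λ, RCLike.re_to_complex] using this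

theorem n2_sub_sq (x y : A) :
    n2 (x - y) ^ 2 = n2 x ^ 2 - 2 * (τ (star x * y) : ℂ).re + n2 y ^ 2 := by
  have := norm_sub_sq (𝕜 := ℂ) (Λ x) (Λ y)
  simpa only [n2, map_sub, inner_Λ, RCLike.re_to_complex] using this

theorem cs_star (x y : A) : ‖(τ (star x * y) : ℂ)‖ ≤ n2 x * n2 y := by
  rw [← inner_Λ]; exact norm_inner_le_norm _ _

theorem cs (x y : A) : ‖(τ (x * y) : ℂ)‖ ≤ n2 x * n2 y := by
  have := cs_star (star x) y
  rwa [star_star, n2_star] at this

theorem norm_τ_le (x : A) : ‖(τ x : ℂ)‖ ≤ n2 x := by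
  simpa using cs (1 : A) x

theorem n2_mul_le_left (a x : A) : n2 (a * x) ≤ ‖a‖ * n2 x := by
  let _ := CStarAlgebra.spectralOrder A
  have := CStarAlgebra.spectralOrderedRing A
  have h1 : star (a * x) * (a * x) ≤ (‖a‖ ^ 2) • (star x * x) := by
    have := CStarAlgebra.star_left_conjugate_le_norm_smul (a := x) (b := star a * a)
    rw [CStarRing.norm_star_mul_self, ← sq] at this
    simpa [mul_assoc] using this
  have h2 := (Complex.le_def.1 (τ_mono h1)).1
  rw [← Complex.coe_smul, map_smul, τ_star_mul_self, τ_star_mul_self, smul_eq_mul,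
    ← Complex.ofReal_mul, Complex.ofReal_re, Complex.ofReal_re, ← mul_pow] at h2
  exact (pow_le_pow_iff_left₀ (n2_nonneg _) (mul_nonneg (norm_nonneg _) (n2_nonneg _))
    two_ne_zero).1 h2

theorem n2_mul_le_right (x a : A) : n2 (x * a) ≤ n2 x * ‖a‖ := by
  rw [← n2_star, star_mul, mul_comm, ← norm_star a, ← n2_star x]
  exact n2_mul_le_left _ _

theorem n2_le_norm (a : A) : n2 a ≤ ‖a‖ := by
  simpa using n2_mul_le_left a 1

theorem n2_mul_le_of_left {a : A} (ha : ‖a‖ ≤ 1) (x : A) : n2 (a * x) ≤ n2 x :=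
  (n2_mul_le_left a x).trans (mul_le_of_le_one_left (n2_nonneg _) ha)

theorem n2_mul_le_of_right (x : A) {a : A} (ha : ‖a‖ ≤ 1) : n2 (x * a) ≤ n2 x :=
  (n2_mul_le_right x a).trans (mul_le_of_le_one_right (n2_nonneg _) ha)

omit [Tr A] in
theorem norm_unitary_le {u : A} (hu : u ∈ unitary A) : ‖u‖ ≤ 1 := by
  rcases subsingleton_or_nontrivial A with h | h
  · simp [Subsingleton.elim u 0]
  · exact (CStarRing.norm_of_mem_unitary hu).le

theorem n2_unitary_mul {u : A} (hu : u ∈ unitary A) (x : A) : n2 (u * x) = n2 x := by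
  rw [n2_def, n2_def, star_mul, mul_assoc, ← mul_assoc (star u), Unitary.star_mul_self_of_mem hu,
    one_mul]

theorem n2_mul_unitary (x : A) {u : A} (hu : u ∈ unitary A) : n2 (x * u) = n2 x := by
  rw [← n2_star, star_mul, n2_unitary_mul (Unitary.star_mem hu), n2_star]

theorem n2_unitary {u : A} (hu : u ∈ unitary A) : n2 u = 1 := by
  simpa using n2_mul_unitary 1 hu

/-- `q4 x = ‖x⋆ x‖₂ = ‖x‖₄ ^ 2`. -/
noncomputable def q4 (x : A) : ℝ := n2 (star x * x)

theorem q4_nonneg (x : A) : 0 ≤ q4 x := n2_nonneg _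

@[simp] theorem q4_zero : q4 (0 : A) = 0 := by simp [q4]
@[simp] theorem q4_neg (x : A) : q4 (-x) = q4 x := by simp [q4]

theorem q4_star (x : A) : q4 (star x) = q4 x := by
  simp only [q4, n2_def, star_mul, star_star]
  congr 2
  rw [mul_assoc, τ_comm]; simp only [mul_assoc]

theorem n2_sq_le_q4 (x : A) : n2 x ^ 2 ≤ q4 x := by
  rw [n2_sq]
  exact (Complex.re_le_norm _).trans (norm_τ_le _)

theorem q4_smul (c : ℂ) (x : A) : q4 (c • x) = ‖c‖ ^ 2 * q4 x := by
  simp only [q4, star_smul, smul_mul_assoc, mul_smul_comm, smul_smul, n2_smul, norm_mul,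
    norm_star, sq]

theorem q4_real_smul (c : ℝ) (x : A) : q4 (c • x) = c ^ 2 * q4 x := by
  rw [← Complex.coe_smul, q4_smul, Complex.norm_real, Real.norm_eq_abs, sq_abs]

theorem q4_mul_le_of_right (x : A) {a : A} (ha : ‖a‖ ≤ 1) : q4 (x * a) ≤ q4 x := by
  have : star (x * a) * (x * a) = star a * ((star x * x) * a) := by simp [mul_assoc]
  rw [q4, this]
  exact (n2_mul_le_of_left (by rwa [norm_star]) _).trans (n2_mul_le_of_right _ ha)

theorem q4_mul_le_of_left {a : A} (ha : ‖a‖ ≤ 1) (x : A) : q4 (a * x) ≤ q4 x := by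
  rw [← q4_star, star_mul, ← q4_star x]
  exact q4_mul_le_of_right _ (by rwa [norm_star])

/-- Hölder `2 = 4, 4`. -/
theorem n2_mul_sq_le (x y : A) : n2 (x * y) ^ 2 ≤ q4 x * q4 y := by
  rw [n2_sq]
  have : τ (star (x * y) * (x * y)) = τ ((star x * x) * (star (star y) * star y)) := by
    rw [star_mul, mul_assoc, τ_comm]; simp only [mul_assoc, star_star]
  rw [this, ← q4_star y]
  exact (Complex.re_le_norm _).trans (cs _ _)

theorem n2_mul_le_of_q4 {x y : A} {a b : ℝ} (ha : 0 ≤ a) (hb : 0 ≤ b) (hx : q4 x ≤ a ^ 2)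
    (hy : q4 y ≤ b ^ 2) : n2 (x * y) ≤ a * b := by
  have h := n2_mul_sq_le x y
  have : q4 x * q4 y ≤ (a * b) ^ 2 := by
    rw [mul_pow]; exact mul_le_mul hx hy (q4_nonneg _) (sq_nonneg _)
  exact (pow_le_pow_iff_left₀ (n2_nonneg _) (mul_nonneg ha hb) two_ne_zero).1 (h.trans this)

theorem n2_mul_le_avg (x y : A) : 2 * n2 (x * y) ≤ q4 x + q4 y := by
  have h := n2_mul_sq_le x y
  have := q4_nonneg x
  have := q4_nonneg y
  have := n2_nonneg (x * y)
  by_contra hc
  push Not at hc
  nlinarith [sq_nonneg (q4 x - q4 y)]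

/-- `n2 (x b x) ≤ q4 x` for a contraction `b`. -/
theorem n2_sandwich (x : A) {b : A} (hb : ‖b‖ ≤ 1) : n2 (x * b * x) ≤ q4 x := by
  have h := n2_mul_le_avg (x * b) x
  have := q4_mul_le_of_right x hb
  linarith

theorem q4_add_le (x y : A) : q4 (x + y) ≤ 2 * q4 x + 2 * q4 y := by
  have e : star (x + y) * (x + y) = (star x * x + star y * y) + (star x * y + star y * x) := by
    rw [star_add]; noncomm_ring
  have h1 := n2_mul_le_avg (star x) y
  have h2 := n2_mul_le_avg (star y) x
  rw [q4_star] at h1 h2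
  have h3 := n2_add_le (star x * x + star y * y) (star x * y + star y * x)
  have h4 := n2_add_le (star x * x) (star y * y)
  have h5 := n2_add_le (star x * y) (star y * x)
  rw [q4, e]; unfold q4 at *; linarith

/-- The fourth-moment step. -/
theorem q4_step (x y : A) :
    q4 (x + y) ^ 2 + q4 (x - y) ^ 2 ≤ 2 * (q4 x ^ 2 + 6 * q4 x * q4 y + q4 y ^ 2) := by
  have e1 : star (x + y) * (x + y) = (star x * x + star y * y) + (star x * y + star y * x) := by
    rw [star_add]; noncomm_ring
  have e2 : star (x - y) * (x - y) = (star x * x + star y * y) - (star x * y + star y * x) := by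
    rw [star_sub]; noncomm_ring
  have hp := n2_parallelogram (star x * x + star y * y) (star x * y + star y * x)
  have h1 := n2_mul_sq_le (star x) y
  have h2 := n2_mul_sq_le (star y) x
  rw [q4_star] at h1 h2
  have h4 : n2 (star x * x + star y * y) ^ 2 ≤ (q4 x + q4 y) ^ 2 :=
    pow_le_pow_left₀ (n2_nonneg _) (n2_add_le _ _) 2
  have h5 : n2 (star x * y + star y * x) ^ 2 ≤ (n2 (star x * y) + n2 (star y * x)) ^ 2 :=
    pow_le_pow_left₀ (n2_nonneg _) (n2_add_le _ _) 2
  have h6 : q4 (x + y) = n2 ((star x * x + star y * y) + (star x * y + star y * x)) := by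
    rw [q4, e1]
  have h7 : q4 (x - y) = n2 ((star x * x + star y * y) - (star x * y + star y * x)) := by
    rw [q4, e2]
  rw [h6, h7, hp]
  nlinarith [sq_nonneg (n2 (star x * y) - n2 (star y * x))]

/-- The fourth-moment step for the squared 2-seminorm. -/
theorem n2sq_step (x y : A) :
    (n2 (x + y) ^ 2) ^ 2 + (n2 (x - y) ^ 2) ^ 2 ≤
      2 * ((n2 x ^ 2) ^ 2 + 6 * n2 x ^ 2 * n2 y ^ 2 + (n2 y ^ 2) ^ 2) := by
  rw [n2_add_sq, n2_sub_sq]
  have h := cs_star x y
  have h1 : |(τ (star x * y) : ℂ).re| ≤ n2 x * n2 y := (Complex.abs_re_le_norm _).trans h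
  have h2 : (τ (star x * y) : ℂ).re ^ 2 ≤ (n2 x * n2 y) ^ 2 := by
    rw [← sq_abs]; exact pow_le_pow_left₀ (abs_nonneg _) h1 2
  nlinarith

/-- imaginary part `(m - m⋆) / (2 i)`. -/
noncomputable def im (m : A) : A := (-(Complex.I / 2)) • (m - star m)
/-- real part `(m + m⋆) / 2`. -/
noncomputable def re (m : A) : A := (1 / 2 : ℂ) • (m + star m)

omit [Tr A] in
theorem im_sa (m : A) : IsSelfAdjoint (im m) := by
  simp only [IsSelfAdjoint, im, star_smul, star_sub, star_star, star_neg, star_div₀,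
    Complex.star_def, Complex.conj_I, map_ofNat]
  rw [← neg_sub m (star m), smul_neg, ← neg_smul]; congr 1; ring

omit [Tr A] in
theorem re_sa (m : A) : IsSelfAdjoint (re m) := by
  simp only [IsSelfAdjoint, re, star_smul, star_add, star_star, star_div₀, star_one,
    Complex.star_def, map_ofNat, add_comm]

omit [Tr A] in
theorem re_add_im (m : A) : re m + Complex.I • im m = m := by
  simp only [re, im, smul_smul]
  have : Complex.I * -(Complex.I / 2) = 1 / 2 := by
    rw [mul_neg, ← mul_div_assoc, Complex.I_mul_I]; ring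
  rw [this, ← smul_add]
  have : m + star m + (m - star m) = (2 : ℂ) • m := by rw [two_smul]; abel
  rw [this, smul_smul]; simp

theorem q4_im_le (m : A) : q4 (im m) ≤ q4 m := by
  rw [im, q4_smul, sub_eq_add_neg]
  have h := q4_add_le m (-star m)
  rw [q4_neg, q4_star] at h
  have : ‖-(Complex.I / 2)‖ ^ 2 = 1 / 4 := by simp; norm_num
  rw [this]; linarith

theorem τ_sa_mul_sa_im {a b : A} (ha : IsSelfAdjoint a) (hb : IsSelfAdjoint b) :
    (τ (a * b) : ℂ).im = 0 := by
  have h := τ_star (a * b)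
  rw [star_mul, ha.star_eq, hb.star_eq, τ_comm] at h
  exact Complex.conj_eq_iff_im.1 h.symm

theorem n2_sq_re_im (m : A) : n2 m ^ 2 = n2 (re m) ^ 2 + n2 (im m) ^ 2 := by
  conv_lhs => rw [← re_add_im m]
  rw [n2_add_sq, n2_smul, (re_sa m).star_eq, mul_smul_comm, map_smul]
  simp [τ_sa_mul_sa_im (re_sa m) (im_sa m)]

omit [Tr A] in
theorem im_I_smul (m : A) : im (Complex.I • m) = re m := by
  simp only [im, re, star_smul, Complex.star_def, Complex.conj_I, neg_smul, sub_neg_eq_add,
    ← smul_add, smul_smul]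
  congr 1
  rw [neg_mul, div_mul_eq_mul_div, Complex.I_mul_I]; ring

omit [Tr A] in
theorem im_conj (v m : A) : im (v * m * star v) = v * im m * star v := by
  simp only [im, star_mul, star_star, mul_smul_comm, smul_mul_assoc, mul_sub, sub_mul, mul_assoc]

omit [Tr A] in
theorem im_mem (S : StarSubalgebra ℂ A) {m : A} (hm : m ∈ S) : im m ∈ S :=
  S.smul_mem (sub_mem hm (star_mem hm)) _

omit [Tr A] in
theorem re_mem (S : StarSubalgebra ℂ A) {m : A} (hm : m ∈ S) : re m ∈ S :=
  S.smul_mem (add_mem hm (star_mem hm)) _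

theorem n2_im_le (m : A) : n2 (im m) ≤ n2 m := by
  have h := n2_sq_re_im m
  have := n2_nonneg (im m)
  have := n2_nonneg m
  nlinarith [sq_nonneg (n2 (re m))]

end Crest.Agent.R95.G
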